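import Vale.Agent.P269CB.Op
import Vale.Agent.P269CG.TauRow

/-!
P269 block C, row GDC: Chern forms are closed.
-/

noncomputable section

namespace Vale.Agent.P269CB

open Filter MvPolynomial Vale.Agent.P272.K Vale.Agent.P269C Vale.Agent.P269CV TrivSqZeroExt
open Vale.Agent.P269CG (SC Nul mem_Nul Lf_swap Lf_single tau_sum tau_sub)
open scoped Topology ContDiff Matrix

variable {D : ℕ} {c : ℂ} {k l : Fin D} {z : Cm D} {β γ : Cm D → Po D}

theorem op_tau (h : SC ∞ β z) {P : Po D} (hP : ∀ m, op c k (fun y => coeff m (β y)) z = coeff m P)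
    (g : Po D) : op c k (fun y => tau (g * β y)) z = tau (g * P) := by
  have h1 (m) : op c k (fun y => coeff m (g * β y)) z = coeff m (g * P) := by
    classical
    simp only [coeff_mul]
    rw [op_sum _ fun x _ => (dif (h x.2)).const_mul _]
    exact Finset.sum_congr rfl fun x _ => by rw [op_cmul _ (dif (h x.2)), hP]
  have h2 (m) := dif (((SC.const g).mul h) m)
  simp only [tau, div_eq_inv_mul]
  rw [op_cmul _ (DifferentiableAt.fun_sum fun σ _ => (h2 _).const_mul _),
    op_sum _ fun σ _ => (h2 _).const_mul _]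
  exact congrArg _ (Finset.sum_congr rfl fun σ _ => by rw [op_cmul _ (h2 _), h1])

theorem SC.sub (h : SC ∞ β z) (h' : SC ∞ γ z) : SC ∞ (fun y => β y - γ y) z := fun m => by
  simp only [coeff_sub]; exact (h m).sub (h' m)

theorem dif_tau (h : SC ∞ β z) (g : Po D) : DifferentiableAt ℝ (fun y => tau (g * β y)) z :=
  dif ((SC.const g).mul h).tau

/-- **Leibniz rule.** -/
theorem op_leib (h : SC ∞ β z) (h' : SC ∞ γ z) (g : Po D) :
    op c k (fun y => tau (g * (β y * γ y))) z =
      op c k (fun y => tau (g * γ z * β y)) z + op c k (fun y => tau (g * β z * γ y)) z := by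
  have s1 := h.mul h'
  have s2 := (SC.const (γ z)).mul h
  have s3 := (SC.const (β z)).mul h'
  have := op_tau (c := c) (k := k) (SC.sub s1 (s2.add s3)) (P := 0) (fun m => by
    classical
    simp only [coeff_sub, coeff_add]
    rw [op_sub (dif (s1 m)) ((dif (s2 m)).fun_add (dif (s3 m))), op_add (dif (s2 m)) (dif (s3 m))]
    simp only [mul_comm (γ z), coeff_mul]
    rw [op_sum _ fun x _ => (dif (h x.1)).fun_mul (dif (h' x.2)),
      op_sum _ fun x _ => (dif (h x.1)).mul_const _, op_sum _ fun x _ => (dif (h' x.2)).const_mul _,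
      ← Finset.sum_add_distrib, ← Finset.sum_sub_distrib]
    refine Finset.sum_eq_zero fun x _ => ?_
    rw [op_mul (dif (h x.1)) (dif (h' x.2)), op_mul (dif (h x.1)) (differentiableAt_const _),
      op_cmul _ (dif (h' x.2)), op_const]
    ring) g
  simp only [mul_sub, mul_add, tau_sub, tau_add, mul_zero, tau_zero, ← mul_assoc g (γ z),
    ← mul_assoc g (β z)] at this
  rw [op_sub (dif_tau s1 g) ((dif_tau h _).fun_add (dif_tau h' _)),
    op_add (dif_tau h _) (dif_tau h' _)] at this
  exact sub_eq_zero.1 this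

/-- `x` is the value of `β` at `z` together with its derivative `∑ dz_k ∧ dz̄_l ∧ ∂_k β` -/
structure Jt (l : Fin D) (z : Cm D) (β : Cm D → Po D) (x : DualNumber (Po D)) : Prop where
  val : x.fst = β z
  sm : SC ∞ β z
  der : ∀ g, ∑ k, op (-Complex.I) k (fun y => tau (g * X (k, l) * β y)) z = tau (g * x.snd)

variable {x x' : DualNumber (Po D)}

theorem Jt.const (P : Po D) : Jt l z (fun _ => P) (inl P) :=
  ⟨rfl, SC.const P, fun g => by simp [op_const, tau_zero]⟩

theorem Jt.add (h : Jt l z β x) (h' : Jt l z γ x') : Jt l z (fun y => β y + γ y) (x + x') := by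
  refine ⟨by rw [fst_add, h.val, h'.val], h.sm.add h'.sm, fun g => ?_⟩
  simp only [snd_add, mul_add, tau_add, ← h.der, ← h'.der, ← Finset.sum_add_distrib]
  exact Finset.sum_congr rfl fun k _ => op_add (dif_tau h.sm _) (dif_tau h'.sm _)

theorem Jt.mul (h : Jt l z β x) (h' : Jt l z γ x') : Jt l z (fun y => β y * γ y) (x * x') := by
  refine ⟨by rw [fst_mul, h.val, h'.val], h.sm.mul h'.sm, fun g => ?_⟩
  rw [DualNumber.snd_mul, h.val, h'.val, mul_add, tau_add, mul_comm x.snd, ← mul_assoc, ← mul_assoc,
    ← h.der, ← h'.der, add_comm, ← Finset.sum_add_distrib]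
  refine Finset.sum_congr rfl fun k _ => ?_
  rw [op_leib h.sm h'.sm, mul_right_comm g _ (γ z), mul_right_comm g _ (β z)]

theorem Jt.sum {ι : Type} (s : Finset ι) {B : ι → Cm D → Po D} {w : ι → DualNumber (Po D)}
    (h : ∀ i, Jt l z (B i) (w i)) : Jt l z (fun y => ∑ i ∈ s, B i y) (∑ i ∈ s, w i) := by
  classical
  induction s using Finset.induction_on with
  | empty => simpa using Jt.const (l := l) (z := z) 0
  | insert i s hi ih => simpa only [Finset.sum_insert hi] using (h i).add ih

theorem Jt.prod {ι : Type} (s : Finset ι) {B : ι → Cm D → Po D} {w : ι → DualNumber (Po D)}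
    (h : ∀ i, Jt l z (B i) (w i)) : Jt l z (fun y => ∏ i ∈ s, B i y) (∏ i ∈ s, w i) := by
  classical
  induction s using Finset.induction_on with
  | empty => simpa using Jt.const (l := l) (z := z) 1
  | insert i s hi ih => simpa only [Finset.prod_insert hi] using (h i).mul ih

variable {n : ℕ}

theorem Jt.det {M : Cm D → Matrix (Fin n) (Fin n) (Po D)}
    {W : Matrix (Fin n) (Fin n) (DualNumber (Po D))} (h : ∀ p q, Jt l z (fun y => M y p q) (W p q)) :
    Jt l z (fun y => (M y).det) W.det := by
  simp only [Matrix.det_apply', ← inl_intCast (R := Po D) (M := Po D)]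
  exact Jt.sum _ fun σ => (Jt.const _).mul (Jt.prod _ fun i => h _ _)

/-- an infinitesimal conjugation does not change the determinant -/
theorem det_conj {R : Type} [CommRing R] (a M : Matrix (Fin n) (Fin n) R) :
    (Matrix.of fun p q => inl (M p q) + inr ((a * M - M * a) p q) :
      Matrix (Fin n) (Fin n) (DualNumber R)).det = inl M.det := by
  let φ : R →+* DualNumber R := inlHom R R
  let A := φ.mapMatrix a
  let N := φ.mapMatrix M
  have e : (Matrix.of fun p q => inl (M p q) + inr ((a * M - M * a) p q) :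
      Matrix (Fin n) (Fin n) (DualNumber R)) =
      (1 + (DualNumber.eps : DualNumber R) • A) * N * (1 - (DualNumber.eps : DualNumber R) • A) := by
    have e1 : (1 + (DualNumber.eps : DualNumber R) • A) * N *
        (1 - (DualNumber.eps : DualNumber R) • A) =
        N + (DualNumber.eps : DualNumber R) • φ.mapMatrix (a * M - M * a) := by
      simp only [map_sub, map_mul, add_mul, mul_sub, one_mul, mul_one, smul_mul_assoc,
        mul_smul_comm, smul_add, smul_sub, smul_smul, DualNumber.eps_mul_eps, zero_smul]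
      abel
    rw [e1]
    ext p q <;> simp [N, φ]
  have e2 : (1 - (DualNumber.eps : DualNumber R) • A) * (1 + (DualNumber.eps : DualNumber R) • A) =
      1 := by
    simp only [mul_add, sub_mul, one_mul, mul_one, smul_mul_assoc, mul_smul_comm, smul_sub, smul_smul,
      DualNumber.eps_mul_eps, zero_smul]
    abel
  rw [e, Matrix.det_mul_comm, ← mul_assoc, e2, one_mul, ← RingHom.map_det]
  rfl

variable {G : Cm D → Matrix (Fin n) (Fin n) ℂ}

/-- the curvature matrix -/
def cu (G : Cm D → Matrix (Fin n) (Fin n) ℂ) (y : Cm D) : Matrix (Fin n) (Fin n) (Po D) :=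
  Matrix.of fun p q => ∑ i, ∑ j, C (dM Complex.I j (th G i) y p q) * X (i, j)

theorem chern_eq (k : ℕ) (y : Cm D) : chern G k y = homogeneousComponent k (1 - cu G y).det := by
  simp only [chern, dz_eq, dzb_eq]
  rfl

/-- the connection form multiplied by `dz̄_l` -/
def aa (G : Cm D → Matrix (Fin n) (Fin n) ℂ) (l : Fin D) (y : Cm D) :
    Matrix (Fin n) (Fin n) (Po D) := Matrix.of fun p q => ∑ k, C (th G k y p q) * X (k, l)

/-- a quadratic expression -/
def TT (l : Fin D) (u : Fin D → Fin D → Fin D → ℂ) : Po D :=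
  ∑ k, X (k, l) * ∑ i, ∑ j, C (u k i j) * X (i, j)

theorem TT_swap (u : Fin D → Fin D → Fin D → ℂ) : TT l u + TT l (fun k i => u i k) ∈ Nul D := by
  simp only [TT, Finset.mul_sum]
  rw [Finset.sum_comm (f := fun k i => ∑ j, X (k, l) * (C (u i k j) * X (i, j)))]
  simp only [← Finset.sum_add_distrib]
  refine sum_mem fun k _ => sum_mem fun i _ => sum_mem fun j _ => ?_
  have := (Nul D).mul_mem_left (C (u k i j))
    (Lf_swap (Pi.single k 1) (Pi.single l 1) (Pi.single i 1) (Pi.single j 1))
  simp only [Lf_single] at this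
  convert this using 1
  ring

theorem TT_sub (u v w : Fin D → Fin D → Fin D → ℂ) :
    TT l (fun k i j => u k i j - (v k i j + w k i j)) = TT l u - (TT l v + TT l w) := by
  simp only [TT, map_sub, map_add, sub_mul, add_mul, mul_sub, mul_add, Finset.sum_sub_distrib,
    Finset.sum_add_distrib]

theorem cu_aa (p q : Fin n) : (cu G z * aa G l z) p q =
    TT l fun k i j => (dM Complex.I j (th G i) z * th G k z) p q := by
  simp only [cu, aa, TT, Matrix.mul_apply, Matrix.of_apply, Finset.mul_sum, Finset.sum_mul, map_sum,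
    map_mul]
  rw [Finset.sum_comm]
  refine Finset.sum_congr rfl fun k _ => ?_
  rw [Finset.sum_comm]
  refine Finset.sum_congr rfl fun i _ => ?_
  rw [Finset.sum_comm]
  exact Finset.sum_congr rfl fun j _ => Finset.sum_congr rfl fun r _ => by ring

theorem aa_cu (p q : Fin n) : (aa G l z * cu G z) p q =
    TT l fun k i j => (th G k z * dM Complex.I j (th G i) z) p q := by
  simp only [cu, aa, TT, Matrix.mul_apply, Matrix.of_apply, Finset.sum_mul]
  simp only [Finset.mul_sum, Finset.sum_mul, map_sum, map_mul]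
  rw [Finset.sum_comm]
  refine Finset.sum_congr rfl fun k _ => ?_
  rw [Finset.sum_comm]
  refine Finset.sum_congr rfl fun i _ => ?_
  rw [Finset.sum_comm]
  exact Finset.sum_congr rfl fun j _ => Finset.sum_congr rfl fun r _ => by ring

theorem sc_cu (h : SM G z) (hd : (G z).det ≠ 0) (p q : Fin n) : SC ∞ (fun y => cu G y p q) z := by
  simp only [cu, Matrix.of_apply]
  exact SC.sum _ fun i _ => SC.sum _ fun j _ => (SC.C ((h.th hd i).dM p q)).mul (SC.const _)

theorem sc_det {M : Cm D → Matrix (Fin n) (Fin n) (Po D)} (h : ∀ p q, SC ∞ (fun y => M y p q) z) :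
    SC ∞ (fun y => (M y).det) z := by
  have h1 (s : Finset (Fin n)) (σ : Fin n → Fin n) : SC ∞ (fun y => ∏ i ∈ s, M y (σ i) i) z := by
    induction s using Finset.induction_on with
    | empty => simpa using SC.const 1
    | insert i s hi ih => simpa only [Finset.prod_insert hi] using (h _ _).mul ih
  simp only [Matrix.det_apply']
  exact SC.sum _ fun σ _ => (SC.const _).mul (h1 _ _)

theorem jt_cu (h : SM G z) (hd : (G z).det ≠ 0) (p q : Fin n) :
    Jt l z (fun y => (1 - cu G y) p q) (inl ((1 - cu G z) p q) +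
      inr ((aa G l z * (1 - cu G z) - (1 - cu G z) * aa G l z) p q)) := by
  have f (i j) : ContDiffAt ℝ ∞ (fun y => dM Complex.I j (th G i) y p q) z := (h.th hd i).dM p q
  have s1 := sc_cu h hd p q
  refine ⟨by simp, SC.sub (SC.const _) s1, fun g => ?_⟩
  have e1 (k) : op (-Complex.I) k (fun y => tau (g * X (k, l) * cu G y p q)) z = tau (g * X (k, l) *
      ∑ i, ∑ j, C (dM (-Complex.I) k (dM Complex.I j (th G i)) z p q) * X (i, j)) := by
    refine op_tau s1 (fun m => ?_) _
    simp only [cu, Matrix.of_apply, coeff_sum, coeff_C_mul]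
    rw [op_sum _ fun i _ => DifferentiableAt.fun_sum fun j _ => (dif (f i j)).mul_const _]
    refine Finset.sum_congr rfl fun i _ => ?_
    rw [op_sum _ fun j _ => (dif (f i j)).mul_const _]
    refine Finset.sum_congr rfl fun j _ => ?_
    rw [op_mul (dif (f i j)) (differentiableAt_const _), op_const, mul_zero, add_zero]
    rfl
  have e2 : ∑ k, op (-Complex.I) k (fun y => tau (g * X (k, l) * (1 - cu G y) p q)) z =
      -tau (g * TT l fun k i j => dM (-Complex.I) k (dM Complex.I j (th G i)) z p q) := by
    rw [TT, Finset.mul_sum, tau_sum, ← Finset.sum_neg_distrib]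
    refine Finset.sum_congr rfl fun k _ => ?_
    simp only [Matrix.sub_apply, mul_sub, tau_sub]
    rw [op_sub (differentiableAt_const _) (dif_tau s1 _), op_const, e1, zero_sub, mul_assoc]
  have e3 := TT_swap (l := l) (fun k i j => dM Complex.I j (sy G k i) z p q) g
  have e4 := TT_swap (l := l) (fun k i j => (th G k z * dM Complex.I j (th G i) z) p q) g
  have e5 : (fun k i j => dM Complex.I j (sy G i k) z p q) =
      fun k i j => dM Complex.I j (sy G k i) z p q := by
    funext k i j; rw [dM_congr (sy_symm h i k)]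
  rw [e5] at e3
  rw [e2]
  simp only [bianchi h hd, Matrix.sub_apply, Matrix.add_apply, TT_sub, snd_add, snd_inl, snd_inr,
    zero_add, mul_sub, sub_mul, mul_one, one_mul, cu_aa, aa_cu, mul_add, tau_sub, tau_add] at e3 e4 ⊢
  linear_combination (-1 / 2 : ℂ) * e3 + e4

theorem tau_hom {A : Po D} {a k : ℕ} (hA : A.IsHomogeneous a) (h : a + k = D) (P : Po D) :
    tau (A * homogeneousComponent k P) = tau (A * P) := by
  conv_rhs => rw [← sum_homogeneousComponent P, Finset.mul_sum, tau_sum]
  rw [Finset.sum_eq_single k (fun i _ hi => tau_of_hom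
    (hA.mul (homogeneousComponent_isHomogeneous i P)) (by omega)) fun hk => ?_]
  rw [homogeneousComponent_eq_zero _ _ (by simpa using hk), mul_zero, tau_zero]

theorem tau_hc (g P : Po D) (k : ℕ) (k' : Fin D) : tau (g * X (k', l) * homogeneousComponent k P) =
    tau ((if k + 1 ≤ D then homogeneousComponent (D - (k + 1)) g else 0) * X (k', l) * P) := by
  have hB := (isHomogeneous_X ℂ (k', l)).mul (homogeneousComponent_isHomogeneous k P)
  rw [mul_assoc, mul_comm g]
  split_ifs with h
  · rw [← tau_hom (k := D - (k + 1)) hB (by omega), ← tau_hom (k := k)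
      ((homogeneousComponent_isHomogeneous (D - (k + 1)) g).mul (isHomogeneous_X ℂ (k', l)))
      (by omega)]
    congr 1
    ring
  · rw [zero_mul, zero_mul, tau_zero, ← sum_homogeneousComponent g, Finset.mul_sum, tau_sum]
    exact Finset.sum_eq_zero fun i _ => tau_of_hom
      (hB.mul (homogeneousComponent_isHomogeneous i g)) (by omega)

/-- **Row GDC.** -/
theorem gdc : GDC := by
  intro D z β h
  have key : SC ∞ β z ∧
      ∀ l g, ∑ k, op (-Complex.I) k (fun y => tau (g * X (k, l) * β y)) z = 0 := by
    induction h with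
    | cst c => exact ⟨SC.const _, fun l g => by simp [op_const]⟩
    | @add β γ _ _ h1 h2 =>
      refine ⟨h1.1.add h2.1, fun l g => ?_⟩
      have := (Jt.add (l := l) (x := inl (β z)) (x' := inl (γ z)) ⟨rfl, h1.1, fun g => by
        simp [h1.2 l g, tau_zero]⟩ ⟨rfl, h2.1, fun g => by simp [h2.2 l g, tau_zero]⟩).der g
      simpa [tau_zero] using this
    | @mul β γ _ _ h1 h2 =>
      refine ⟨h1.1.mul h2.1, fun l g => ?_⟩
      have := (Jt.mul (l := l) (x := inl (β z)) (x' := inl (γ z)) ⟨rfl, h1.1, fun g => by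
        simp [h1.2 l g, tau_zero]⟩ ⟨rfl, h2.1, fun g => by simp [h2.2 l g, tau_zero]⟩).der g
      simpa [tau_zero] using this
    | ch n k G hG hd =>
      have j (l : Fin D) := Jt.det (M := fun y => 1 - cu G y) (W := Matrix.of fun p q =>
        inl ((1 - cu G z) p q) + inr ((aa G l z * (1 - cu G z) - (1 - cu G z) * aa G l z) p q))
        (jt_cu (l := l) hG hd)
      refine ⟨fun m => ?_, fun l g => ?_⟩
      · simp only [chern_eq, coeff_homogeneousComponent]
        split_ifs
        · exact sc_det (M := fun y => 1 - cu G y)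
            (fun p q => SC.sub (SC.const _) (sc_cu hG hd p q)) m
        · exact contDiffAt_const
      · simp only [chern_eq, tau_hc]
        rw [(j l).der, det_conj, snd_inl, mul_zero, tau_zero]
    | congr _ e h1 =>
      refine ⟨fun m => (h1.1 m).congr_of_eventuallyEq (e.mono fun y hy => by simp only [hy]),
        fun l g => (Finset.sum_congr rfl fun k _ => ?_).trans (h1.2 l g)⟩
      exact op_congr (e.mono fun y hy => by simp only [hy])
  exact ⟨key.1, fun l g => by simpa only [dz_eq] using key.2 l g⟩

end Vale.Agent.P269CB
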