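import Vale.Agent.P269C.Spec
import Vale.Agent.P269CG.Tau

/-!
P269 block C, row GDC: the operators `∂_k`, `∂̄_k` on functions and matrices, the connection
matrix and its curvature.
-/

noncomputable section

namespace Vale.Agent.P269CB

open Filter Vale.Agent.P272.K
open scoped Topology ContDiff Matrix

variable {D : ℕ} {c c' : ℂ} {k j : Fin D} {f g : Cm D → ℂ} {z : Cm D}

/-- the common shape of `dz` and `dzb` -/
def op (c : ℂ) (k : Fin D) (f : Cm D → ℂ) (z : Cm D) : ℂ :=
  (fderiv ℝ f z (Pi.single k 1) + c * fderiv ℝ f z (Pi.single k Complex.I)) / 2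

theorem dz_eq (k : Fin D) (f : Cm D → ℂ) : dz k f = op (-Complex.I) k f := by
  funext z; rw [dz, op]; ring

theorem dzb_eq (k : Fin D) (f : Cm D → ℂ) : dzb k f = op Complex.I k f := rfl

theorem op_congr (h : f =ᶠ[𝓝 z] g) : op c k f z = op c k g z := by rw [op, op, h.fderiv_eq]

theorem op_const (a : ℂ) : op c k (fun _ => a) z = 0 := by simp [op]

theorem op_add (hf : DifferentiableAt ℝ f z) (hg : DifferentiableAt ℝ g z) :
    op c k (fun y => f y + g y) z = op c k f z + op c k g z := by
  simp only [op, fderiv_fun_add hf hg, _root_.add_apply]; ring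

theorem op_sub (hf : DifferentiableAt ℝ f z) (hg : DifferentiableAt ℝ g z) :
    op c k (fun y => f y - g y) z = op c k f z - op c k g z := by
  simp only [op, fderiv_fun_sub hf hg, _root_.sub_apply]; ring

theorem op_mul (hf : DifferentiableAt ℝ f z) (hg : DifferentiableAt ℝ g z) :
    op c k (fun y => f y * g y) z = op c k f z * g z + f z * op c k g z := by
  simp only [op, fderiv_fun_mul hf hg, _root_.add_apply,
    _root_.smul_apply, smul_eq_mul]; ring

theorem op_cmul (a : ℂ) (hg : DifferentiableAt ℝ g z) :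
    op c k (fun y => a * g y) z = a * op c k g z := by
  rw [op_mul (differentiableAt_const a) hg, op_const, zero_mul, zero_add]

theorem op_sum {ι : Type*} (s : Finset ι) {F : ι → Cm D → ℂ}
    (h : ∀ i ∈ s, DifferentiableAt ℝ (F i) z) :
    op c k (fun y => ∑ i ∈ s, F i y) z = ∑ i ∈ s, op c k (F i) z := by
  simp only [op, fderiv_fun_sum h, _root_.sum_apply, Finset.mul_sum,
    ← Finset.sum_div, Finset.sum_add_distrib]

theorem fd_sm (h : ContDiffAt ℝ ∞ f z) (v : Cm D) : ContDiffAt ℝ ∞ (fun y => fderiv ℝ f y v) z :=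
  (h.fderiv_right (m := ∞) (by simp)).clm_apply contDiffAt_const

theorem op_sm (h : ContDiffAt ℝ ∞ f z) : ContDiffAt ℝ ∞ (op c k f) z :=
  ((fd_sm h _).add (contDiffAt_const.mul (fd_sm h _))).div_const _

theorem dif (h : ContDiffAt ℝ ∞ f z) : DifferentiableAt ℝ f z := h.differentiableAt (by simp)

theorem two (h : ContDiffAt ℝ ∞ f z) : ContDiffAt ℝ 2 f z :=
  h.of_le (WithTop.coe_le_coe.2 (le_top : (2 : ℕ∞) ≤ ⊤))

theorem fd_dif (h : ContDiffAt ℝ 2 f z) : DifferentiableAt ℝ (fderiv ℝ f) z :=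
  (h.fderiv_right (m := 1) (by norm_num)).differentiableAt (by simp)

theorem fd_symm (h : ContDiffAt ℝ 2 f z) (v w : Cm D) :
    fderiv ℝ (fun y => fderiv ℝ f y v) z w = fderiv ℝ (fun y => fderiv ℝ f y w) z v := by
  rw [fderiv_clm_apply (fd_dif h) (differentiableAt_const v),
    fderiv_clm_apply (fd_dif h) (differentiableAt_const w)]
  simp only [fderiv_fun_const, Pi.zero_apply, ContinuousLinearMap.comp_zero, zero_add,
    ContinuousLinearMap.flip_apply]
  exact (h.isSymmSndFDerivAt (by simp)).eq w v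

theorem op_op (h : ContDiffAt ℝ 2 f z) : op c k (op c' j f) z = op c' j (op c k f) z := by
  have e (a : ℂ) (i : Fin D) : op a i f = fun y => 2⁻¹ * (fderiv ℝ f y (Pi.single i 1) +
      a * fderiv ℝ f y (Pi.single i Complex.I)) := by funext y; rw [op]; ring
  have d (v : Cm D) : DifferentiableAt ℝ (fun y => fderiv ℝ f y v) z :=
    (fd_dif h).clm_apply (differentiableAt_const v)
  have e2 (a b : ℂ) (i i' : Fin D) : op b i' (op a i f) z = 2⁻¹ *
      (op b i' (fun y => fderiv ℝ f y (Pi.single i 1)) z +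
        a * op b i' (fun y => fderiv ℝ f y (Pi.single i Complex.I)) z) := by
    rw [e a i, op_cmul _ ((d _).fun_add ((d _).const_mul _)),
      op_add (d _) ((d _).const_mul _), op_cmul _ (d _)]
  rw [e2, e2]
  simp only [op]
  rw [fd_symm h (Pi.single j 1) (Pi.single k 1), fd_symm h (Pi.single j 1) (Pi.single k Complex.I),
    fd_symm h (Pi.single j Complex.I) (Pi.single k 1),
    fd_symm h (Pi.single j Complex.I) (Pi.single k Complex.I)]
  ring

variable {n : ℕ} {F G : Cm D → Matrix (Fin n) (Fin n) ℂ}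

/-- smooth matrix valued functions -/
def SM (F : Cm D → Matrix (Fin n) (Fin n) ℂ) (z : Cm D) : Prop :=
  ∀ p q, ContDiffAt ℝ ∞ (fun y => F y p q) z

/-- entrywise derivative -/
def dM (c : ℂ) (k : Fin D) (F : Cm D → Matrix (Fin n) (Fin n) ℂ) (z : Cm D) :
    Matrix (Fin n) (Fin n) ℂ := Matrix.of fun p q => op c k (fun y => F y p q) z

theorem SM.dM (h : SM F z) : SM (dM c k F) z := fun p q => op_sm (h p q)

theorem SM.mul (hF : SM F z) (hG : SM G z) : SM (fun y => F y * G y) z := fun p q => by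
  simp only [Matrix.mul_apply]
  exact ContDiffAt.sum fun r _ => (hF p r).mul (hG r q)

theorem SM.det (h : SM F z) : ContDiffAt ℝ ∞ (fun y => (F y).det) z := by
  simp only [Matrix.det_apply']
  exact ContDiffAt.sum fun σ _ => contDiffAt_const.mul (contDiffAt_prod fun i _ => h _ _)

theorem SM.inv (h : SM F z) (hd : (F z).det ≠ 0) : SM (fun y => (F y)⁻¹) z := fun p q => by
  simp only [Matrix.inv_def, Ring.inverse_eq_inv', Matrix.smul_apply, smul_eq_mul,
    Matrix.adjugate_apply]
  refine (h.det.inv hd).mul (SM.det fun a b => ?_)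
  simp only [Matrix.updateRow_apply]
  split_ifs
  · exact contDiffAt_const
  · exact h a b

theorem dM_congr (h : F =ᶠ[𝓝 z] G) : dM c k F z = dM c k G z := by
  ext p q
  exact op_congr (h.mono fun y hy => by simp only [hy])

/-- matrix valued functions of class `C²` -/
def S2 (F : Cm D → Matrix (Fin n) (Fin n) ℂ) (z : Cm D) : Prop :=
  ∀ p q, ContDiffAt ℝ 2 (fun y => F y p q) z

theorem SM.s2 (h : SM F z) : S2 F z := fun p q => two (h p q)

theorem SM.ev (h : SM F z) : ∀ᶠ y in 𝓝 z, S2 F y :=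
  eventually_all.2 fun p => eventually_all.2 fun q => (two (h p q)).eventually (by simp)

theorem S2.dif (h : S2 F z) (p q : Fin n) : DifferentiableAt ℝ (fun y => F y p q) z :=
  (h p q).differentiableAt (by simp)

theorem dM_sub (hF : S2 F z) (hG : S2 G z) :
    dM c k (fun y => F y - G y) z = dM c k F z - dM c k G z := by
  ext p q
  exact op_sub (hF.dif p q) (hG.dif p q)

theorem dM_mul (hF : S2 F z) (hG : S2 G z) :
    dM c k (fun y => F y * G y) z = dM c k F z * G z + F z * dM c k G z := by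
  ext p q
  have := op_sum (c := c) (k := k) Finset.univ (F := fun r y => F y p r * G y r q)
    fun r _ => (hF.dif p r).fun_mul (hG.dif r q)
  refine this.trans ?_
  simp only [dM, Matrix.of_apply, Matrix.mul_apply, Matrix.add_apply, ← Finset.sum_add_distrib]
  exact Finset.sum_congr rfl fun r _ => op_mul (hF.dif p r) (hG.dif r q)

theorem dM_dM (h : S2 F z) : dM c k (dM c' j F) z = dM c' j (dM c k F) z := by
  ext p q
  exact op_op (h p q)

/-- the connection matrix -/
def th (G : Cm D → Matrix (Fin n) (Fin n) ℂ) (i : Fin D) (y : Cm D) : Matrix (Fin n) (Fin n) ℂ :=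
  dM (-Complex.I) i G y * (G y)⁻¹

theorem SM.th (h : SM G z) (hd : (G z).det ≠ 0) (i : Fin D) : SM (th G i) z :=
  h.dM.mul (h.inv hd)

/-- the symmetric part of the derivative of the connection -/
def sy (G : Cm D → Matrix (Fin n) (Fin n) ℂ) (k i : Fin D) (y : Cm D) :
    Matrix (Fin n) (Fin n) ℂ := dM (-Complex.I) k (dM (-Complex.I) i G) y * (G y)⁻¹

theorem sy_symm (h : SM G z) (k i : Fin D) : sy G k i =ᶠ[𝓝 z] sy G i k :=
  h.ev.mono fun y hy => by rw [sy, sy, dM_dM hy]

theorem d_th (h : SM G z) (hd : (G z).det ≠ 0) (k i : Fin D) :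
    dM (-Complex.I) k (th G i) =ᶠ[𝓝 z] fun y => sy G k i y - th G i y * th G k y := by
  have h1 : ∀ᶠ y in 𝓝 z, (G y).det ≠ 0 := h.det.continuousAt.eventually_ne hd
  filter_upwards [h1, h1.eventually_nhds, h.ev, (h.th hd i).ev] with y hy hy' hG hT
  have u (x : Cm D) (hx : (G x).det ≠ 0) : IsUnit (G x).det := Ne.isUnit hx
  have e1 : dM (-Complex.I) k (fun x => th G i x * G x) y =
      dM (-Complex.I) k (dM (-Complex.I) i G) y :=
    dM_congr (hy'.mono fun x hx => Matrix.nonsing_inv_mul_cancel_right _ _ (u x hx))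
  rw [dM_mul hT hG] at e1
  rw [sy, ← e1, Matrix.add_mul, Matrix.mul_nonsing_inv_cancel_right _ _ (u y hy),
    Matrix.mul_assoc (th G i y)]
  exact (add_sub_cancel_right _ _).symm

/-- **The Bianchi identity.** -/
theorem bianchi (h : SM G z) (hd : (G z).det ≠ 0) (k i j : Fin D) :
    dM (-Complex.I) k (dM c j (th G i)) z = dM c j (sy G k i) z -
      (dM c j (th G i) z * th G k z + th G i z * dM c j (th G k) z) := by
  rw [dM_dM (h.th hd i).s2, dM_congr (d_th h hd k i),
    dM_sub (F := sy G k i) (h.dM.dM.mul (h.inv hd)).s2 ((h.th hd i).mul (h.th hd k)).s2,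
    dM_mul (h.th hd i).s2 (h.th hd k).s2]

end Vale.Agent.P269CB
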